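import Vale.Agent.P229.Statement
import Vale.Agent.P229.Edge
import Vale.Agent.P229.CoreEnergy
import Vale.Agent.P229.Compose
import Vale.Agent.P229.Prep
import Vale.Agent.P229.Sobolev
import Vale.Agent.P229.Family
import Vale.Agent.P229.Surface
import Vale.Agent.P229.Square
import Vale.Agent.P229.Boot
import Vale.Agent.P229.Detect
import Vale.Agent.P229.Final.Main

namespace Vale.Agent.Results.P229.NoLocalRealization

open scoped ContDiff
open Vale.Agent.P229

/-- There is a smooth metric on the plane such that no neighbourhood of the origin admits a smooth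
isometric immersion into Euclidean three-space. -/
theorem result :
    ∃ g : ℝ × ℝ → Matrix (Fin 2) (Fin 2) ℝ,
      (∀ i j, ContDiff ℝ ∞ fun z => g z i j) ∧ (∀ z, (g z).PosDef) ∧
      ∀ U : Set (ℝ × ℝ), IsOpen U → (0, 0) ∈ U →
        ¬ ∃ F : ℝ × ℝ → EuclideanSpace ℝ (Fin 3), ContDiffOn ℝ ∞ F U ∧
          ∀ z ∈ U, ∀ i j : Fin 2,
            inner ℝ (fderiv ℝ F z (![((1 : ℝ), (0 : ℝ)), (0, 1)] i))
              (fderiv ℝ F z (![((1 : ℝ), (0 : ℝ)), (0, 1)] j)) = g z i j :=
  no_local_realization (Final.final
    (Detect.core (boot edge coreEnergy (prep comp linRem mixed) sobolev))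
    family_spec surface square)

end Vale.Agent.Results.P229.NoLocalRealization
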